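import Vale.Agent.P028.MathlibUsed
import Vale.Agent.P028.R26.LogStar

/-!
# The iterated logarithm as a number of iterations
-/

namespace Vale.P028

/-- `logStar n` is the number of iterations of `Nat.log 2` needed to reach a number `≤ 1` -/
theorem logStar_eq_sInf (n : ℕ) : logStar n = sInf {k : ℕ | (Nat.log 2)^[k] n ≤ 1} := by
  induction n using Nat.strong_induction_on with
  | _ n ih =>
    rcases le_or_gt n 1 with h | h
    · rw [logStar_of_le h]
      symm
      rw [Nat.sInf_eq_zero]
      exact Or.inl h
    · rw [logStar_of_lt h, ih _ (Nat.log_lt_self 2 (by omega))]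
      set S : Set ℕ := {k : ℕ | (Nat.log 2)^[k] (Nat.log 2 n) ≤ 1} with hS
      set T : Set ℕ := {k : ℕ | (Nat.log 2)^[k] n ≤ 1} with hT
      have hne : ∀ m : ℕ, ∃ k : ℕ, (Nat.log 2)^[k] m ≤ 1 := by
        intro m
        induction m using Nat.strong_induction_on with
        | _ m ihm =>
          rcases le_or_gt m 1 with hm | hm
          · exact ⟨0, hm⟩
          · obtain ⟨k, hk⟩ := ihm _ (Nat.log_lt_self 2 (show m ≠ 0 by omega))
            exact ⟨k + 1, hk⟩
      have hSn : S.Nonempty := hne _
      have hTn : T.Nonempty := hne _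
      apply le_antisymm
      · have h1 : sInf T ∈ T := Nat.sInf_mem hTn
        cases h2 : sInf T with
        | zero =>
          rw [h2] at h1
          exact absurd (show n ≤ 1 from h1) (by omega)
        | succ k =>
          rw [h2] at h1
          have h3 : k ∈ S := h1
          exact Nat.succ_le_succ (Nat.sInf_le h3)
      · have h1 : sInf S ∈ S := Nat.sInf_mem hSn
        have h2 : sInf S + 1 ∈ T := h1
        exact Nat.sInf_le h2

end Vale.P028
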