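import Vale.Agent.P028.MathlibUsed
import Vale.Agent.P028.H472.FinL0
import Vale.Agent.P028.H758.Fin
import Vale.Agent.P028.R764.LkTop
attribute [-instance] ProperSMul.toContinuousSMul IsTopologicalTorsor.toContinuousSMul IdemSemiring.toCanonicallyOrderedAdd IdemSemiring.toMulLeftMono IdemSemiring.toMulRightMono AddQuantale.instAddLeftMono AddQuantale.instAddRightMono Quantale.instMulLeftMono Quantale.instMulRightMono FiniteDimensional.rclike_to_real IsScalarTower.complexToReal FiniteDimensional.complexToReal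

/-!
# The first question with the loss of the square of the iterated logarithm
-/

namespace Vale.P028.SK

open Finset CF

theorem massV1P : MassV1P := by
  unfold MassV1P
  refine ev_mass_V1T.mono ?_
  intro K Js h
  refine ⟨16, 0, fun g hK hJs _ τ hV => ?_⟩
  have := h g hK hJs τ hV
  linarith

/-- **The first question with the loss `(1 + log* q) ^ 2`**, from the bound of the leaks -/
theorem q1_iter_of_leak (hL : LeakGroupB) (γ : ℝ) (ψ : ℕ → ℝ) (hψ : ∀ q, 0 ≤ ψ q)
    (hdiv : ¬ Summable (fun q : ℕ => ((q.totient : ℝ) / q) * ψ q /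
      (1 + ((sInf {k : ℕ | (Nat.log 2)^[k] q ≤ 1} : ℕ) : ℝ)) ^ 2)) :
    MeasureTheory.volume (W γ ψ)ᶜ = 0 := by
  refine q1_lstar_of_BMk (bmk2_of_leak hL massV1P γ) ψ hψ ?_
  intro hs
  apply hdiv
  refine hs.congr fun q => ?_
  rw [logStar_eq_sInf]

end Vale.P028.SK
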