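import Vale.Agent.P028.MathlibUsed
import Vale.Agent.P028.H132.RowNumG
import Vale.Agent.P028.H669.NewRow
attribute [-instance] ProperSMul.toContinuousSMul IsTopologicalTorsor.toContinuousSMul IdemSemiring.toCanonicallyOrderedAdd IdemSemiring.toMulLeftMono IdemSemiring.toMulRightMono AddQuantale.instAddLeftMono AddQuantale.instAddRightMono Quantale.instMulLeftMono Quantale.instMulRightMono FiniteDimensional.rclike_to_real IsScalarTower.complexToReal FiniteDimensional.complexToReal

/-!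
# The old row inside a phase which does not pay: no link is needed

In a phase which does not pay the mass is at most twice the number of deviations plus `3`, so the
reflected walk at a stage is at least the mass up to the next deviation, minus `3`.
-/

namespace Vale.P028.RK

open Finset Vale.P028.RN

variable {n : ℕ} {L : Type*} [Fintype L] {π : Fin n → L → ℝ} {o : Fin n → L} {μ : ℕ → ℝ}
  {c κ ε : ℝ} {Ch : (Fin n → L) → Finset ℕ} {Pay : (Fin n → L) → ℕ → Prop}
  {σ : (Fin n → L) → ℝ}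

/-- the probability of the trivial labels, a better constant -/
theorem Sys.triv_exp4 (H : Sys π o μ c κ ε Ch Pay) (i d : ℕ) :
    Real.exp (-(ms μ i d / 4)) ≤
      ∏ k ∈ Ico i d, (if h : k < n then π ⟨k, h⟩ (o ⟨k, h⟩) else 1) := by
  have hε : ε ≤ 1 / 25 := by
    have h3 := Real.add_one_le_exp (24 : ℝ)
    have h4 := H.ε_small
    have h5 := H.ε_nonneg
    nlinarith
  have h0 := H.ε_nonneg
  have hk : ∀ k ∈ Ico i d, Real.exp (-(μ k / 4)) ≤
      (if h : k < n then π ⟨k, h⟩ (o ⟨k, h⟩) else 1) := by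
    intro k _
    have m0 := H.μ_nonneg k
    have m1 := H.μ_le k
    have h1 : Real.exp (-(μ k / 4)) ≤ 1 - ε * μ k := by
      have h2 : Real.exp (-(μ k / 4)) * (1 + μ k / 4) ≤ 1 := by
        have h3 := Real.add_one_le_exp (μ k / 4)
        calc Real.exp (-(μ k / 4)) * (1 + μ k / 4) ≤
              Real.exp (-(μ k / 4)) * Real.exp (μ k / 4) :=
              mul_le_mul_of_nonneg_left (by linarith) (Real.exp_pos _).le
          _ = 1 := by rw [← Real.exp_add]; simp
      have h4 : 1 ≤ (1 - ε * μ k) * (1 + μ k / 4) := by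
        have h5 : ε * μ k ≤ 1 / 25 * μ k := mul_le_mul_of_nonneg_right hε m0
        have h6 : ε * μ k * μ k ≤ 1 / 25 * μ k := by
          have : ε * μ k * μ k ≤ (1 / 25 * μ k) * 1 :=
            mul_le_mul h5 (by linarith) m0 (by positivity)
          linarith
        nlinarith
      have h7 := Real.exp_pos (-(μ k / 4))
      nlinarith
    split_ifs with hkn
    · have := H.dev ⟨k, hkn⟩
      simp only at this
      linarith
    · rw [Real.exp_le_one_iff]
      linarith
  calc Real.exp (-(ms μ i d / 4)) = ∏ k ∈ Ico i d, Real.exp (-(μ k / 4)) := by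
        unfold ms
        rw [← Real.exp_sum, sum_neg_distrib, sum_div]
    _ ≤ _ := prod_le_prod (fun k _ => (Real.exp_pos _).le) hk

open Classical in
/-- moving the place through trivial labels -/
theorem anchor4 (H : Sys π o μ c κ ε Ch Pay) {x : Fin n → L} {i e : ℕ} (hie : i ≤ e) (hen : e ≤ n)
    (hx : Tri o x i e) {g : (Fin n → L) → ℝ} (hg : ∀ v, 0 ≤ g v) :
    cE π i (fun v => Real.exp (W (dvw o v) μ i) * g v) x ≤
      Real.exp (ms μ i e + ms μ i e / 4) * cE π e (fun v => Real.exp (W (dvw o v) μ e) *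
        (if Tri o v i e then g v else 0)) x := by
  set h : (Fin n → L) → ℝ := fun v => if Tri o v i e then Real.exp (W (dvw o v) μ i) * g v else 0
    with hh
  have h0 : ∀ v, 0 ≤ h v := fun v => by
    rw [hh]
    simp only
    split_ifs
    · exact mul_nonneg (Real.exp_pos _).le (hg v)
    · exact le_rfl
  have e1 : cE π i (fun v => Real.exp (W (dvw o v) μ i) * g v) x = cE π i h x := by
    unfold cE
    refine sum_congr rfl fun z _ => ?_
    have : Tri o (mix i z x) i e := fun k k1 k2 => by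
      rw [dvw_mix_ge k1]
      exact hx k k1 k2
    rw [hh]
    simp only
    rw [if_pos this]
  have e2 := cE_le_of_triv (o := o) H.π_nonneg H.π_one hie hen h0 hx
  have e3 := H.triv_exp4 i e
  have e4 := cE_nonneg H.π_nonneg (s := i) h0 x
  have e5 : Real.exp (-(ms μ i e / 4)) * cE π i h x ≤ cE π e h x :=
    (mul_le_mul_of_nonneg_right e3 e4).trans e2
  set a := ms μ i e with ha
  have e6 : cE π e h x ≤ Real.exp a * cE π e (fun v => Real.exp (W (dvw o v) μ e) *
        (if Tri o v i e then g v else 0)) x := by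
    unfold cE
    rw [mul_sum]
    refine sum_le_sum fun z _ => ?_
    set v := mix e z x
    have h6 := Pr_nonneg H.π_nonneg z
    rw [hh]
    simp only
    by_cases ht : Tri o v i e
    · rw [if_pos ht, if_pos ht]
      have h7 := W_lower (dv := dvw o v) H.μ_nonneg hie
      rw [nd_eq_zero ht] at h7
      have h8 : Real.exp (W (dvw o v) μ i) ≤ Real.exp a * Real.exp (W (dvw o v) μ e) := by
        rw [← Real.exp_add]
        refine Real.exp_le_exp.2 ?_
        linarith
      have h9 := mul_le_mul_of_nonneg_left (mul_le_mul_of_nonneg_right h8 (hg v)) h6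
      linarith
    · rw [if_neg ht, if_neg ht]
      simp
  rw [e1]
  have e7 : cE π i h x = Real.exp (a / 4) * (Real.exp (-(a / 4)) * cE π i h x) := by
    rw [← mul_assoc, ← Real.exp_add]
    simp
  rw [e7, Real.exp_add]
  have e8 := Real.exp_pos (a / 4)
  calc Real.exp (a / 4) * (Real.exp (-(a / 4)) * cE π i h x) ≤ Real.exp (a / 4) * cE π e h x :=
        mul_le_mul_of_nonneg_left e5 e8.le
    _ ≤ Real.exp (a / 4) * (Real.exp a * cE π e (fun v => Real.exp (W (dvw o v) μ e) *
        (if Tri o v i e then g v else 0)) x) := mul_le_mul_of_nonneg_left e6 e8.le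
    _ = _ := by ring

/-- the reflected walk through trivial labels -/
theorem W_noDev {dv : ℕ → Prop} (hμ : ∀ k, 0 ≤ μ k) {i b : ℕ} (h : i ≤ b)
    (hn : ∀ k, i ≤ k → k < b → ¬ dv k) : W dv μ b = max 0 (W dv μ i - ms μ i b) := by
  induction b, h using Nat.le_induction with
  | base =>
    rw [ms_self, sub_zero, max_eq_right (W_nonneg i)]
  | succ b hb ih =>
    have ih := ih fun k k1 k2 => hn k k1 (by omega)
    rw [W_succ_not (hn b hb (Nat.lt_succ_self b)), ih, ms_succ hb]
    have h1 := hμ b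
    rcases le_total 0 (W dv μ i - ms μ i b) with h2 | h2
    · rw [max_eq_right h2]
      congr 1
      ring
    · rw [max_eq_left h2, max_eq_left (by linarith), max_eq_left (by linarith)]

open Classical in
/-- **the row of one phase which does not pay**, no link -/
theorem phase_row_np (H : Sys π o μ c κ ε Ch Pay) (hσ : ∀ ω, 0 ≤ σ ω) (x : Fin n → L)
    {J : Finset ℕ} {lo e : ℕ} (hJ : ∀ i ∈ J, lo ≤ i ∧ i ≤ e) (hen : e ≤ n)
    (hnp : ∀ b, lo ≤ b → b ≤ e → ms μ lo b ≤ 2 * nd (dvw o x) lo b + 3)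
    {G : ℕ → (Fin n → L) → ℝ} (hG : ∀ i v, 0 ≤ G i v) {C0 : ℝ} (hC0 : 0 ≤ C0)
    (coup : ∀ e' ≤ e, ∀ z, ∑ i ∈ J.filter (fun i => i ≤ e' ∧ Tri o x i e' ∧ Tri o z i e'),
      G i (mix e' z x) ≤ C0)
    {w : ℝ} (hw : ∀ k, lo ≤ k → k ≤ e → w ≤ W (dvw o x) μ k) :
    ∑ i ∈ J, Real.exp (-W (dvw o x) μ i) *
      cE π i (fun v => Real.exp (W (dvw o v) μ i) * (G i v * σ v ^ 3)) x ≤
      3 * Real.exp 7 * C0 * Real.exp (-w) * Dm π σ x := by
  have hD0 := Dm_nonneg (π := π) σ x
  rcases J.eq_empty_or_nonempty with h0 | h0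
  · rw [h0, sum_empty]
    positivity
  set T := J.max' h0 with hT
  have hTJ : T ∈ J := max'_mem _ _
  obtain ⟨hT1, hT2⟩ := hJ T hTJ
  have hTn : T ≤ n := hT2.trans hen
  set dv := dvw o x with hdv
  set D := (Ico lo T).filter (fun d => dv d) with hD
  have hTD : T ∉ D := fun h => by
    have := mem_Ico.1 (mem_filter.1 h).1
    omega
  set B : ℕ → Finset ℕ := fun e' => J.filter (fun i => i ≤ e' ∧ Tri o x i e') with hB
  set f : ℕ → ℝ := fun i => Real.exp (-W dv μ i) *
      cE π i (fun v => Real.exp (W (dvw o v) μ i) * (G i v * σ v ^ 3)) x with hf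
  have f0 : ∀ i, 0 ≤ f i := fun i => mul_nonneg (Real.exp_pos _).le
    (cE_nonneg H.π_nonneg (fun v => mul_nonneg (Real.exp_pos _).le
      (mul_nonneg (hG i v) (pow_nonneg (hσ v) 3))) x)
  -- covering
  have hcov : J ⊆ (insert T D).biUnion B := by
    intro i hi
    rw [mem_biUnion]
    by_cases hex : ∃ k, i ≤ k ∧ k < T ∧ dv k
    · obtain ⟨k, k1, k2, k3⟩ := hex
      obtain ⟨d, hd, hdk⟩ := exists_FD k1 k3
      refine ⟨d, mem_insert_of_mem (mem_filter.2 ⟨mem_Ico.2 ⟨?_, by omega⟩, hd.2.1⟩),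
        mem_filter.2 ⟨hi, hd.1, hd.2.2⟩⟩
      have := (hJ i hi).1
      have := hd.1
      omega
    · push Not at hex
      exact ⟨T, mem_insert_self _ _, mem_filter.2 ⟨hi, le_max' _ _ hi, fun k k1 k2 =>
        hex k k1 k2⟩⟩
  -- one anchor
  have hone : ∀ e' ∈ insert T D, ∑ i ∈ B e', f i ≤
      Real.exp (7 - w - nd dv lo e') * (C0 * Dm π σ x) := by
    intro e' he'
    have he'T : e' ≤ T ∧ lo ≤ e' := by
      rcases mem_insert.1 he' with rfl | h
      · exact ⟨le_rfl, hT1⟩
      · have := mem_Ico.1 (mem_filter.1 h).1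
        exact ⟨this.2.le, this.1⟩
    have he'n : e' ≤ n := he'T.1.trans hTn
    have he'e : e' ≤ e := he'T.1.trans hT2
    have n0 := nd_nonneg (dv := dv) lo e'
    have hnpe := hnp e' he'T.2 he'e
    have h1 : ∀ i ∈ B e', f i ≤ Real.exp (7 - w - nd dv lo e') *
        cE π e' (fun v => Real.exp (W (dvw o v) μ e') *
          (if Tri o v i e' then G i v * σ v ^ 3 else 0)) x := by
      intro i hi
      obtain ⟨hiJ, hie, htr⟩ := mem_filter.1 hi
      obtain ⟨hi1, hi2⟩ := hJ i hiJ
      have h2 := anchor4 H hie he'n htr (g := fun v => G i v * σ v ^ 3)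
        (fun v => mul_nonneg (hG i v) (pow_nonneg (hσ v) 3))
      set m := ms μ i e' with hm
      -- the walk at `i`
      have w1 : W dv μ e' = max 0 (W dv μ i - m) := W_noDev H.μ_nonneg hie htr
      have w2 := W_lower (dv := dv) H.μ_nonneg hi1
      have w3 := W_lower (dv := dv) H.μ_nonneg he'T.2
      have w4 := W_nonneg (dv := dv) (μ := μ) lo
      have n1 := nd_add (dv := dv) hi1 hie
      rw [nd_eq_zero (dv := dv) (i := i) (b := e') htr, add_zero] at n1
      have m1 := ms_add (μ := μ) hi1 hie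
      have m2 := ms_nonneg H.μ_nonneg lo i
      have m3 := ms_nonneg H.μ_nonneg i e'
      rw [← hm] at m1 m3
      have w5 := hw lo le_rfl (by omega)
      -- `m ≤ W i + 3`
      have k1 : m ≤ W dv μ i + 3 := by
        have := nd_nonneg (dv := dv) lo i
        linarith
      have k2 : W dv μ e' + m ≤ W dv μ i + 3 := by
        rw [w1]
        rcases le_total 0 (W dv μ i - m) with h | h
        · rw [max_eq_right h]
          linarith
        · rw [max_eq_left h]
          linarith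
      have k3 : m ≤ 2 * nd dv lo e' + 3 := by linarith
      have k4 : w + 4 * nd dv lo e' - 3 ≤ W dv μ e' := by linarith
      have k5 : -W dv μ i + (m + m / 4) ≤ 7 - w - nd dv lo e' := by linarith
      calc f i ≤ Real.exp (-W dv μ i) * (Real.exp (m + m / 4) *
            cE π e' (fun v => Real.exp (W (dvw o v) μ e') *
              (if Tri o v i e' then G i v * σ v ^ 3 else 0)) x) :=
            mul_le_mul_of_nonneg_left h2 (Real.exp_pos _).le
        _ = Real.exp (-W dv μ i + (m + m / 4)) *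
            cE π e' (fun v => Real.exp (W (dvw o v) μ e') *
              (if Tri o v i e' then G i v * σ v ^ 3 else 0)) x := by
            rw [Real.exp_add (-W dv μ i)]
            ring
        _ ≤ _ := by
            refine mul_le_mul_of_nonneg_right (Real.exp_le_exp.2 k5) ?_
            refine cE_nonneg H.π_nonneg (fun v => mul_nonneg (Real.exp_pos _).le ?_) x
            split_ifs
            · exact mul_nonneg (hG i v) (pow_nonneg (hσ v) 3)
            · exact le_rfl
    refine (sum_le_sum h1).trans ?_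
    rw [← mul_sum]
    refine mul_le_mul_of_nonneg_left ?_ (Real.exp_pos _).le
    have h4 := cE_exp_W_le H.π_nonneg H.π_one H.μ_nonneg H.μ_le H.ε_small H.dev he'n hσ x
    have h5 : ∑ i ∈ B e', cE π e' (fun v => Real.exp (W (dvw o v) μ e') *
          (if Tri o v i e' then G i v * σ v ^ 3 else 0)) x ≤
        C0 * cE π e' (fun v => Real.exp (W (dvw o v) μ e') * σ v ^ 3) x := by
      unfold cE
      rw [sum_comm, mul_sum]
      refine sum_le_sum fun z _ => ?_
      rw [← mul_sum]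
      set v := mix e' z x
      have h6 := Pr_nonneg H.π_nonneg z
      have h7 : ∑ i ∈ B e', Real.exp (W (dvw o v) μ e') *
          (if Tri o v i e' then G i v * σ v ^ 3 else 0) ≤
          C0 * (Real.exp (W (dvw o v) μ e') * σ v ^ 3) := by
        rw [← mul_sum]
        have h8 : ∑ i ∈ B e', (if Tri o v i e' then G i v * σ v ^ 3 else 0) ≤ C0 * σ v ^ 3 := by
          rw [← sum_filter, ← sum_mul]
          refine mul_le_mul_of_nonneg_right ?_ (pow_nonneg (hσ v) 3)
          refine le_trans (le_of_eq ?_) (coup e' he'e z)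
          rw [hB]
          simp only
          rw [filter_filter]
          refine sum_congr ?_ fun i _ => rfl
          ext i
          simp only [mem_filter]
          refine and_congr_right fun _ => ?_
          constructor
          · rintro ⟨⟨k1, k2⟩, k3⟩
            refine ⟨k1, k2, fun k k4 k5 => ?_⟩
            have := k3 k k4 k5
            rwa [dvw_mix_lt k5] at this
          · rintro ⟨k1, k2, k3⟩
            refine ⟨⟨k1, k2⟩, fun k k4 k5 => ?_⟩
            rw [dvw_mix_lt k5]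
            exact k3 k k4 k5
        have h9 := mul_le_mul_of_nonneg_left h8 (Real.exp_pos (W (dvw o v) μ e')).le
        linarith
      have h8 := mul_le_mul_of_nonneg_left h7 h6
      linarith
    exact h5.trans (mul_le_mul_of_nonneg_left h4 hC0)
  -- sum over the anchors
  have hanch : ∑ e' ∈ insert T D, Real.exp (7 - w - nd dv lo e') ≤
      3 * Real.exp 7 * Real.exp (-w) := by
    have e0 : ∀ e', Real.exp (7 - w - nd dv lo e') =
        Real.exp 7 * Real.exp (-w) * Real.exp (-nd dv lo e') := by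
      intro e'
      rw [← Real.exp_add, ← Real.exp_add]
      ring_nf
    simp only [e0]
    rw [← mul_sum, sum_insert hTD]
    have h1 : Real.exp (-nd dv lo T) ≤ 1 :=
      Real.exp_le_one_iff.2 (neg_nonpos.2 (nd_nonneg _ _))
    have h4 : ∑ d ∈ D, Real.exp (-nd dv lo d) ≤ 2 * Real.exp (-0) := by
      refine geo D (fun d => nd dv lo d) 0 (fun d _ => nd_nonneg _ _) fun d hd d' hd' hlt => ?_
      have hd1d := (mem_Ico.1 (mem_filter.1 hd).1).1
      have h5 := nd_add (dv := dv) hd1d hlt.le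
      have h6 := one_le_nd (dv := dv) (le_refl d) hlt (mem_filter.1 hd).2
      linarith
    rw [neg_zero, Real.exp_zero, mul_one] at h4
    have h5 : 0 ≤ Real.exp 7 * Real.exp (-w) := by positivity
    nlinarith
  have hmain : ∑ i ∈ J, f i ≤ ∑ e' ∈ insert T D, ∑ i ∈ B e', f i := by
    refine (sum_le_sum_of_subset_of_nonneg hcov fun i _ _ => f0 i).trans ?_
    exact sum_biUnion_le' _ _ f f0
  refine hmain.trans ((sum_le_sum hone).trans ?_)
  rw [← sum_mul]
  have h5 : 0 ≤ C0 * Dm π σ x := by positivity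
  refine (mul_le_mul_of_nonneg_right hanch h5).trans (le_of_eq ?_)
  ring

end Vale.P028.RK

namespace Vale.P028.SK

open Finset CF RN H669 RK

variable {g : Cfg}

open Classical in
/-- the family of the partners of `x` at stages of phases of `x` which do not pay -/
structure OldN (g : Cfg) (c1 : ℝ) (x : ℕ) (I : Finset ℕ) (Y : ℕ → Finset ℕ) (w : ℕ → ℕ → ℝ)
    (C₀ : ℝ) : Prop where
  st : ∀ i ∈ I, 1 ≤ i ∧ i ≤ nst g ∧ ∃ j, 1 ≤ j ∧ j ≤ i ∧ Nw g j x
  np : ∀ i ∈ I, ∀ h, Fs g x h i → ¬ Pyw g c1 x (N g - z g h)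
  sub : ∀ i ∈ I, Y i ⊆ g.V
  cell : ∀ i ∈ I, ∀ y ∈ Y i, y ∈ NT.cell g.V (f g) (thr g) (N g) (z g i) x
  nonneg : ∀ i ∈ I, ∀ y ∈ Y i, 0 ≤ w i y
  C0_nonneg : 0 ≤ C₀
  fib : ∀ h m m', ∑ i ∈ I.filter (fun i => Fs g x h i ∧ M g i x = m),
    ∑ y ∈ (Y i).filter (fun y => M g i y = m'), w i y ≤ C₀

section

variable {x : ℕ} {I : Finset ℕ} {Y : ℕ → Finset ℕ} {w : ℕ → ℕ → ℝ} {c1 C₀ : ℝ}

/-- the total mass as link -/
theorem OldN.old (h : OldN g c1 x I Y w C₀) (h1 : 0 ≤ c1) :
    OldI g c1 x I Y w (RK.ms (muw g c1 x) 0 (N g)) C₀ where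
  st := h.st
  sub := h.sub
  cell := h.cell
  nonneg := h.nonneg
  a_nonneg := ms_nonneg (muw_nonneg h1 x) _ _
  C0_nonneg := h.C0_nonneg
  link := fun i _ i2 _ _ _ b hb1 hb2 => by
    have hb : b ≤ N g := hb2.trans (Nat.sub_le _ _)
    have h3 := ms_add (μ := muw g c1 x) (Nat.zero_le (N g - z g i)) hb1
    have h4 := ms_add (μ := muw g c1 x) (Nat.zero_le b) hb
    have h5 := ms_nonneg (muw_nonneg (g := g) h1 x) 0 (N g - z g i)
    have h6 := ms_nonneg (muw_nonneg (g := g) h1 x) b (N g)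
    have h7 := nd_nonneg (dv := fun k => uw g x k = true) (N g - z g i) b
    linarith
  fib := h.fib

open Classical in
/-- **one phase which does not pay, in numbers** -/
theorem OldN.phase (hJ : JsOK g.K g.Js) (hX : g.Js ≤ g.X) (hV : g.V ⊆ Icc 1 (N g)) {c : ℝ}
    (h1 : 0 < c1) (h1e : c1 * Real.exp 24 ≤ 1) (hc : 0 < c) (hc1 : c ≤ 1)
    (hz : 4 ≤ c1 * zs g) (hx : x ∈ g.V) (h : OldN g c1 x I Y w C₀) {j : ℕ}
    (hj : j ∈ NwP g x) {w₀ : ℝ}
    (hw : ∀ k, j ≤ k → k ≤ nx (NwP g x) (N g) j →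
      w₀ ≤ RK.W (fun k => uw g x k = true) (muw g c1 x) k) :
    ∑ i ∈ I.filter (fun i => InPh (NwP g x) j (N g - z g i)), rowf g c1 x Y w i ≤
      3 * Real.exp 7 * C₀ * (7 / 4) * Real.exp (-w₀) := by
  have H := sys_base hJ hX hV h1 h1e hc hc1 hz (Subset.refl g.V) hx
  have hP := Pos_w hJ hX hV h1 (by linarith) hx
  have hO := h.old h1.le
  have e2 : (fun k => uw g x k = true) = dvw (fun _ => 0) (wo g x) := by
    funext k
    exact propext (uw_dvw x k)
  obtain ⟨h0, -, -, hnew, hpos⟩ := mem_NwP.1 hj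
  set I' := I.filter (fun i => InPh (NwP g x) j (N g - z g i)) with hI'
  set P := I'.image (fun i => N g - z g i) with hPd
  have hPe : ∀ p ∈ P, j ≤ p ∧ p ≤ nx (NwP g x) (N g) j := by
    intro p hp
    obtain ⟨i, hi, rfl⟩ := mem_image.1 hp
    have h3 := (mem_filter.1 hi).2
    exact ⟨h3.1, h3.le_nx (Nat.sub_le _ _)⟩
  have hst : ∀ i ∈ I', i ∈ I ∧ Fs g x h0 i := fun i hi => by
    obtain ⟨h2, h3⟩ := mem_filter.1 hi
    exact ⟨h2, Fs_of_inPh hJ hX hV hx (h.st i h2).2.1 hj h3 (h.st i h2).2.2 hnew hpos⟩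
  rcases I'.eq_empty_or_nonempty with hI0 | ⟨i₀, hi₀⟩
  · rw [hI0, sum_empty]
    have := h.C0_nonneg
    positivity
  have hnp : ¬ Pyw g c1 x j := by
    obtain ⟨k1, k2⟩ := hst i₀ hi₀
    have := h.np i₀ k1 h0 k2
    rwa [hpos] at this
  have hrow := phase_row_np H (σ := fun _ => 1) (fun _ => zero_le_one) (wo g x) (J := P)
    (lo := j) (e := nx (NwP g x) (N g) j) hPe (nx_le j)
    (fun b hb1 hb2 => by
      have h3 := hP.np j hj hnp b hb1 hb2
      rw [e2] at h3
      exact h3)
    (G := GO g x I Y w j) (fun p v => hO.GO_nonneg j p v) h.C0_nonneg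
    (fun e' _ z' => hO.coup hJ hX hV hx hj e' _ _ fun p hp => by
      obtain ⟨-, q1, q2, -⟩ := mem_filter.1 hp
      exact ⟨q1, q2⟩)
    (w := w₀) (fun k k1 k2 => by
      have := hw k k1 k2
      rw [e2] at this
      exact this)
  have hD := Dm_one (π := wn g x) (wn_sum hx) (wo g x)
  have hbd : 3 * Real.exp 7 * C₀ * Real.exp (-w₀) * Dm (wn g x) (fun _ => 1) (wo g x) ≤
      3 * Real.exp 7 * C₀ * (7 / 4) * Real.exp (-w₀) := by
    have h3 := mul_le_mul_of_nonneg_left hD (mul_nonneg (mul_nonneg (mul_nonneg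
      (by norm_num : (0 : ℝ) ≤ 3) (Real.exp_pos 7).le) h.C0_nonneg) (Real.exp_pos (-w₀)).le)
    linarith
  refine le_trans ?_ (hrow.trans hbd)
  -- every stage
  have hone : ∀ i ∈ I', rowf g c1 x Y w i ≤
      Real.exp (-RK.W (dvw (fun _ => 0) (wo g x)) (muw g c1 x) (N g - z g i)) *
        cE (wn g x) (N g - z g i) (fun v => (∑ y ∈ (Y i).filter (fun y => hbw g i y x = v),
          w i y) * Real.exp (RK.W (dvw (fun _ => 0) v) (muw g c1 x) (N g - z g i))) (wo g x) := by
    intro i hi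
    obtain ⟨k1, k2⟩ := hst i hi
    unfold rowf
    rw [e2]
    refine mul_le_mul_of_nonneg_left ?_ (Real.exp_pos _).le
    have h3 := out_row_G (zs_le_z hJ hX i) hx (Y i) (h.sub i k1) (h.cell i k1) (h.nonneg i k1)
      (Φ := fun v => Real.exp (RK.W (dvw (fun _ => 0) v) (muw g c1 x) (N g - z g i)))
      (fun _ => (Real.exp_pos _).le)
    refine le_trans (le_of_eq (sum_congr rfl fun y hy => ?_)) h3
    rw [W_hbw (h.cell i k1 y hy) c1 le_rfl]
    ring
  refine (sum_le_sum hone).trans ?_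
  -- group the stages by their positions
  have hgr : ∀ p ∈ P, ∑ i ∈ I'.filter (fun i => N g - z g i = p),
      Real.exp (-RK.W (dvw (fun _ => 0) (wo g x)) (muw g c1 x) (N g - z g i)) *
        cE (wn g x) (N g - z g i) (fun v => (∑ y ∈ (Y i).filter (fun y => hbw g i y x = v),
          w i y) * Real.exp (RK.W (dvw (fun _ => 0) v) (muw g c1 x) (N g - z g i))) (wo g x) =
      Real.exp (-RK.W (dvw (fun _ => 0) (wo g x)) (muw g c1 x) p) *
        cE (wn g x) p (fun v => Real.exp (RK.W (dvw (fun _ => 0) v) (muw g c1 x) p) *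
          (GO g x I Y w j p v * (1 : ℝ) ^ 3)) (wo g x) := by
    intro p _
    have e3 : (fun v => Real.exp (RK.W (dvw (fun _ => 0) v) (muw g c1 x) p) *
        (GO g x I Y w j p v * (1 : ℝ) ^ 3)) =
        fun v => ∑ i ∈ I'.filter (fun i => N g - z g i = p),
          (∑ y ∈ (Y i).filter (fun y => hbw g i y x = v), w i y) *
            Real.exp (RK.W (dvw (fun _ => 0) v) (muw g c1 x) p) := by
      funext v
      rw [← sum_mul, one_pow, mul_one, mul_comm]
      congr 1
      unfold GO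
      rw [← sum_filter]
    rw [e3, cE_sum' (wn g x) p, mul_sum]
    refine sum_congr rfl fun i hi => ?_
    rw [(mem_filter.1 hi).2]
  rw [← sum_congr rfl hgr]
  refine le_of_eq ?_
  rw [sum_fiberwise_of_maps_to (fun i hi => mem_image_of_mem _ hi)]

open Classical in
/-- **THE OLD ROW in numbers, phases of `x` which do not pay** -/
theorem old_row_np (hJ : JsOK g.K g.Js) (hX : g.Js ≤ g.X) (hV : g.V ⊆ Icc 1 (N g)) {c : ℝ}
    (h1 : 0 < c1) (h1e : c1 * Real.exp 24 ≤ 1) (hc : 0 < c) (hc1 : c ≤ 1)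
    (hz : 4 ≤ c1 * zs g) (hx : x ∈ g.V) (h : OldN g c1 x I Y w C₀) :
    ∑ i ∈ I, Vp (c * c1 / 8) (Pyw g c1 x) (NwP g x) (N g - z g i) * rowf g c1 x Y w i ≤
      255 * Real.exp 7 * C₀ / (c * c1 / 8) * (7 / 4) := by
  have H := sys_base hJ hX hV h1 h1e hc hc1 hz (Subset.refl g.V) hx
  have hκ0 := H.κ_pos
  have hκ1 := H.κ_le
  have hP := Pos_w hJ hX hV h1 (by linarith) hx
  have hμ : ∀ k, 0 ≤ muw g c1 x k := muw_nonneg h1.le x
  have hO := h.old h1.le
  set κ := c * c1 / 8 with hκ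
  have hV0 : ∀ p, 0 ≤ Vp κ (Pyw g c1 x) (NwP g x) p := fun p => (Vp_bounds hκ0.le hκ1 p).1
  set W0 := RK.W (fun k => uw g x k = true) (muw g c1 x) with hW0
  -- the sum over the phases
  set F : ℕ → ℝ := fun j =>
    ∑ i ∈ I.filter (fun i => InPh (NwP g x) j (N g - z g i)), rowf g c1 x Y w i
    with hF
  have hle : ∑ i ∈ I, Vp κ (Pyw g c1 x) (NwP g x) (N g - z g i) *
      rowf g c1 x Y w i ≤ ∑ j ∈ NwP g x, F j * Vp κ (Pyw g c1 x) (NwP g x) j := by
    have e1 : ∑ j ∈ NwP g x, F j * Vp κ (Pyw g c1 x) (NwP g x) j =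
        ∑ j ∈ NwP g x,
          ∑ i ∈ I.filter (fun i => InPh (NwP g x) j (N g - z g i)),
            Vp κ (Pyw g c1 x) (NwP g x) (N g - z g i) * rowf g c1 x Y w i := by
      rw [hF]
      refine sum_congr rfl fun j _ => ?_
      simp only
      rw [sum_mul]
      refine sum_congr rfl fun i hi => ?_
      rw [Vp_of_inPh (mem_filter.1 hi).2]
      ring
    rw [e1]
    have hf0 : ∀ i ∈ I, 0 ≤ Vp κ (Pyw g c1 x) (NwP g x) (N g - z g i) *
        rowf g c1 x Y w i := fun i hi => mul_nonneg (hV0 _) (hO.rowf_nonneg hi)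
    have e2 : ∑ j ∈ NwP g x, ∑ i ∈ I.filter (fun i => InPh (NwP g x) j (N g - z g i)),
        Vp κ (Pyw g c1 x) (NwP g x) (N g - z g i) * rowf g c1 x Y w i =
        ∑ i ∈ I, ∑ j ∈ NwP g x, if InPh (NwP g x) j (N g - z g i) then
          Vp κ (Pyw g c1 x) (NwP g x) (N g - z g i) * rowf g c1 x Y w i else 0 := by
      rw [sum_comm]
      refine sum_congr rfl fun j _ => ?_
      rw [sum_filter]
    rw [e2]
    refine sum_le_sum fun i hi => ?_
    obtain ⟨k, hk⟩ := exists_Fs (h.st i hi).2.2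
    have hk1 := hk.mem_NwP (h.st i hi).2.1
    have hk2 := hk.inPh hJ hX
    refine le_trans (le_of_eq ?_) (single_le_sum (f := fun j =>
      if InPh (NwP g x) j (N g - z g i) then
        Vp κ (Pyw g c1 x) (NwP g x) (N g - z g i) * rowf g c1 x Y w i else 0)
      (fun j _ => by
        split_ifs
        · exact hf0 i hi
        · exact le_rfl) hk1)
    rw [if_pos hk2]
  set A := 3 * Real.exp 7 * C₀ * (7 / 4) with hA
  have hC0 := h.C0_nonneg
  have hA0 : 0 ≤ A := by positivity
  -- one phase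
  have hph : ∀ j ∈ NwP g x, ∀ w₀, (∀ k, j ≤ k → k ≤ nx (NwP g x) (N g) j → w₀ ≤ W0 k) →
      F j ≤ A * Real.exp (-w₀) := by
    intro j hj w₀ hw
    exact h.phase hJ hX hV h1 h1e hc hc1 hz hx hj hw
  have h3 := chain_sum (Pay := Pyw g c1 x) hκ0 hκ1 (a := A) (b := 21 * A) hA0 (by positivity)
    (w := W0) (fun k => W_nonneg k) (F := F) (NwP g x)
    (fun j hj _ => by
      have := hph j hj 0 fun k _ _ => W_nonneg k
      simpa using this)
    (fun j hj hp => by
      refine (hph j hj (W0 j - 3) (hP.low hμ hj hp)).trans ?_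
      have e1 : Real.exp (-(W0 j - 3)) = Real.exp 3 * Real.exp (-W0 j) := by
        rw [← Real.exp_add]
        ring_nf
      rw [e1]
      have e2 := mul_le_mul_of_nonneg_right exp_three (Real.exp_pos (-W0 j)).le
      have e3 := mul_le_mul_of_nonneg_left e2 hA0
      linarith)
    (fun j hj s hs hjs hn hp => hP.incr hμ hj hp hs hjs hn)
  refine hle.trans (h3.trans (le_of_eq ?_))
  rw [hA]
  ring

open Classical in
/-- **THE NEW ROW in numbers with the potentials**, phases which pay and the last phase -/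
theorem new_row_numW (hJ : JsOK g.K g.Js) (hX : g.Js ≤ g.X) (hV : g.V ⊆ Icc 1 (N g)) {c : ℝ}
    (h1 : 0 < c1) (h1e : c1 * Real.exp 24 ≤ 1) (hc : 0 < c) (hc1 : c ≤ 1)
    (hz : 4 ≤ c1 * zs g) (hx : x ∈ g.V) (h : RowI g x I Y w C₀)
    (hp : ∀ i ∈ I, Pyw g c1 x (N g - z g i)) :
    ∑ i ∈ I, Vt (c * c1 / 8) (Pyw g c1 x) (NwP g x) (N g - z g i) *
      rowf g c1 x Y w i ≤ 1 / (c * c1 / 8) * (C₀ * (7 / 4)) := by
  have H := sys_base hJ hX hV h1 h1e hc hc1 hz (Subset.refl g.V) hx
  have hκ0 := H.κ_pos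
  have hκ1 := H.κ_le
  have hC0 := h.C0_nonneg
  have e1 : (fun k => uw g x k = true) = dvw (fun _ => 0) (wo g x) := by
    funext k
    exact propext (uw_dvw x k)
  have hone : ∀ i ∈ I, rowf g c1 x Y w i ≤ C₀ * (7 / 4) := by
    intro i hi
    have h3 := out_row_G (zs_le_z hJ hX i) hx (Y i) (h.sub i hi) (h.cell i hi) (h.nonneg i hi)
      (Φ := fun v => Real.exp (RK.W (dvw (fun _ => 0) v) (muw g c1 x) (N g - z g i)))
      (fun _ => (Real.exp_pos _).le)
    have h4 := cE_exp_W_le H.π_nonneg H.π_one H.μ_nonneg H.μ_le H.ε_small H.dev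
      (i := N g - z g i) (Nat.sub_le _ _) (σ := fun _ => 1) (fun _ => zero_le_one) (wo g x)
    have hD := Dm_one (π := wn g x) (wn_sum hx) (wo g x)
    have hW0 : Real.exp (-RK.W (fun k => uw g x k = true) (muw g c1 x) (N g - z g i)) ≤ 1 :=
      Real.exp_le_one_iff.2 (neg_nonpos.2 (W_nonneg _))
    have hS0 : 0 ≤ ∑ y ∈ Y i, Wt g i y *
        (Real.exp (RK.W (fun k => uw g y k = true) (muw g c1 y) (N g - z g i)) * w i y) :=
      sum_nonneg fun y hy => mul_nonneg (Wt_nonneg i y)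
        (mul_nonneg (Real.exp_pos _).le (h.nonneg i hi y hy))
    unfold rowf
    refine (mul_le_of_le_one_left hS0 hW0).trans ?_
    have e2 : ∑ y ∈ Y i, Wt g i y *
          (Real.exp (RK.W (fun k => uw g y k = true) (muw g c1 y) (N g - z g i)) * w i y) =
      ∑ y ∈ Y i, Wt g i y * (w i y *
        Real.exp (RK.W (dvw (fun _ => 0) (hbw g i y x)) (muw g c1 x) (N g - z g i))) := by
      refine sum_congr rfl fun y hy => ?_
      rw [W_hbw (h.cell i hi y hy) c1 le_rfl]
      ring
    rw [e2]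
    refine h3.trans ?_
    have h5 : cE (wn g x) (N g - z g i) (fun v => (∑ y ∈ (Y i).filter (fun y => hbw g i y x = v),
        w i y) * Real.exp (RK.W (dvw (fun _ => 0) v) (muw g c1 x) (N g - z g i))) (wo g x) ≤
        C₀ * cE (wn g x) (N g - z g i) (fun v => Real.exp (RK.W (dvw (fun _ => 0) v)
          (muw g c1 x) (N g - z g i)) * (1 : ℝ) ^ 3) (wo g x) := by
      have e3 : C₀ * cE (wn g x) (N g - z g i) (fun v => Real.exp (RK.W (dvw (fun _ => 0) v)
          (muw g c1 x) (N g - z g i)) * (1 : ℝ) ^ 3) (wo g x) =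
          cE (wn g x) (N g - z g i) (fun v => C₀ * (Real.exp (RK.W (dvw (fun _ => 0) v)
          (muw g c1 x) (N g - z g i)) * (1 : ℝ) ^ 3)) (wo g x) := by
        unfold cE
        rw [mul_sum]
        exact sum_congr rfl fun _ _ => by ring
      rw [e3]
      refine cE_mono (wn_nonneg x) (fun v => ?_) _
      rw [one_pow, mul_one]
      refine mul_le_mul_of_nonneg_right ?_ (Real.exp_pos _).le
      exact fib_hbw (zs_le_z hJ hX i) (h.sub i hi) (h.cell i hi) (h.nonneg i hi) hC0
        (h.fib i hi) v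
    exact h5.trans (mul_le_mul_of_nonneg_left (h4.trans hD) hC0)
  have hV0 : ∀ p, 0 ≤ Vt (c * c1 / 8) (Pyw g c1 x) (NwP g x) p := fun p =>
    (Vt_bounds hκ0.le hκ1 p).1
  calc _ ≤ ∑ i ∈ I, Vt (c * c1 / 8) (Pyw g c1 x) (NwP g x) (N g - z g i) * (C₀ * (7 / 4)) :=
        sum_le_sum fun i hi => mul_le_mul_of_nonneg_left (hone i hi) (hV0 _)
    _ = (∑ i ∈ I, Vt (c * c1 / 8) (Pyw g c1 x) (NwP g x) (N g - z g i)) * (C₀ * (7 / 4)) := by
        rw [sum_mul]
    _ ≤ 1 / (c * c1 / 8) * (C₀ * (7 / 4)) := by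
        refine mul_le_mul_of_nonneg_right ?_ (by positivity)
        refine le_trans ?_ (row_pay (Pay := Pyw g c1 x) hκ0 hκ1 (NwP g x))
        refine sum_pos_le h.inj (F := fun a => Vt (c * c1 / 8) (Pyw g c1 x) (NwP g x) a)
          (fun i hi => mem_filter.2 ⟨NwP_of_Nw (h.nw i hi), hp i hi⟩) (fun a _ => hV0 a)

end

end Vale.P028.SK
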